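import Vale.Agent.Results.P321.Window
import Vale.Agent.P321A.Pad

/-!
Worst-case trace reconstruction for strings over an arbitrary alphabet `α` (finite or infinite):
comparison with binary strings, and lower and upper bounds for the number of traces with constants
that do not depend on the alphabet. For `α = Bool` and success probability `2 / 3` the number
`TA α q s n` is `T_q(n)`.
-/

namespace Vale.Agent.Results.P321.AAASymbols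

open Vale.Agent.P321 Vale.Agent.P321A Filter
open scoped unitInterval

theorem result :
    (∀ (q : I) (n : ℕ), T q n = TA Bool q (2 / 3) n) ∧
    (∀ (α : Type) [Nontrivial α] (q : I) (s : ℝ) (n : ℕ), TA Bool q s n ≤ TA α q s n) ∧
    (∀ (α : Type) [Nonempty α] (q : I) (d : ℝ) (n : ℕ),
      TA α q (1 - 2 * (n + 1) * d) n ≤ TA Bool q (1 - d) n) ∧
    (∀ q : I, 0 < (q : ℝ) → (q : ℝ) < 1 → ∃ c : ℝ, 0 < c ∧ ∀ a : ℝ, 2 < a → ∀ᶠ n : ℕ in atTop,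
      ∀ (α : Type) [Nontrivial α],
        (⌈Real.exp (c * (Real.log n) ^ (1 + 1 / 46 : ℝ))⌉₊ : ℕ∞) ≤ TA α q (2 / 3) n ∧
        TA α q (2 / 3) n ≤ (⌊Real.exp ((Real.log n) ^ a)⌋₊ : ℕ∞)) ∧
    (∃ c C : ℝ, 0 < c ∧ ∀ (α : Type) [Nontrivial α] (n : ℕ) (q : I),
      C ≤ (q : ℝ) ^ 3 * Real.log n →
      ∀ s : ℝ, Real.exp (-(c * Real.log n * ((q : ℝ) ^ 3 * Real.log n) ^ (1 / 46 : ℝ))) ≤ s →
        (⌈Real.exp (c * Real.log n * ((q : ℝ) ^ 3 * Real.log n) ^ (1 / 46 : ℝ))⌉₊ : ℕ∞)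
          ≤ TA α q s n) ∧
    (∀ a : ℝ, 2 < a → ∃ C : ℝ, 0 < C ∧ ∀ (α : Type) [Nonempty α] (q : I), (q : ℝ) < 1 →
      ∀ n : ℕ, 2 ≤ n → ∀ s : ℝ, s ≤ 1 - Real.exp (-n) →
        TA α q s n ≤ (⌊Real.exp (C / (1 - q) * (Real.log n) ^ a)⌋₊ : ℕ∞)) ∧
    (∀ a : ℝ, 2 < a → ∃ C : ℝ, 0 < C ∧ ∀ (α : Type) [Nonempty α] (q : I), 0 < (q : ℝ) →
      (q : ℝ) ≤ 1 / 2 → ∀ n : ℕ, 2 ≤ n → ∀ s : ℝ, s ≤ 1 - Real.exp (-n) →
        TA α q s n ≤ (⌊Real.exp (C * Real.log n *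
          (1 + Real.log n / Real.log (1 / (q : ℝ))) ^ (a - 1))⌋₊ : ℕ∞)) ∧
    ∀ δ : ℝ, 0 < δ → ∃ C : ℝ, 0 < C ∧ ∀ (α : Type) [Nonempty α] (n : ℕ), 2 ≤ n → ∀ q : I,
      (q : ℝ) ≤ (n : ℝ) ^ (-δ) →
      ∀ s : ℝ, s ≤ 1 - Real.exp (-n) → TA α q s n ≤ (⌊(n : ℝ) ^ C⌋₊ : ℕ∞) := by
  obtain ⟨⟨c₁, C₁, hc₁, h1⟩, -, h3, h4, h5, h6, h7⟩ := Window.result
  refine ⟨fun q n => (h4 q n).trans (TA_bool q _ n).symm,
    fun α _ q s n => (TA_bool q s n).trans_le (Ts_le_TA α q s n),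
    fun α _ q d n => (TA_le_Ts α q d n).trans_eq (TA_bool q _ n).symm, fun q hq hq' => ?_,
    ⟨c₁, C₁, hc₁, fun α _ n q hq s hs => ((h1 n q hq).2 s hs).trans (Ts_le_TA α q s n)⟩,
    fun a ha => upper_all ha (h5 a ha), fun a ha => upper_half ha (h6 a ha), upper_small h7⟩
  obtain ⟨c, hc, h⟩ := h3 q hq hq'
  refine ⟨c, hc, fun a ha => ?_⟩
  filter_upwards [h a ha, upper_fixed h5 q hq' ha] with n g1 g2 α _
  exact ⟨(g1.1.trans_eq (h4 q n)).trans (Ts_le_TA α q _ n), g2 α⟩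

end Vale.Agent.Results.P321.AAASymbols
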